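import Vale.Agent.P249.Defs
import Vale.Agent.P249.UpperFinal

open MeasureTheory
open scoped ENNReal

namespace Vale.Agent.Results.P249.NearLinearUpper

open Vale.Agent.P249

universe u

/-- Near-linear upper bound for dimension reduction of finite subsets of `L_p`, `1 ≤ p < ∞`. -/
theorem result (p : ℝ≥0∞) [Fact (1 ≤ p)] (hp : p ≠ ∞) (D : ℝ) (hD : 1 < D) :
    ∃ C : ℝ, 0 < C ∧ ∀ n : ℕ, 2 ≤ n →
      EmbedsAll.{u} p n D (dimNum.{u} p n D) ∧
      (dimNum.{u} p n D : ℝ) ≤ C * n * Real.log n ^ p.toReal := by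
  obtain ⟨C, hC, h⟩ := upper_bound.{u} p hp D hD
  refine ⟨C, hC, fun n hn => ?_⟩
  obtain ⟨d, hd, hdC⟩ := h n hn
  have hne : {d : ℕ | EmbedsAll.{u} p n D d}.Nonempty := ⟨d, hd⟩
  refine ⟨Nat.sInf_mem hne, ?_⟩
  have h1 : dimNum.{u} p n D ≤ d := Nat.sInf_le hd
  exact le_trans (by exact_mod_cast h1) hdC

end Vale.Agent.Results.P249.NearLinearUpper
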