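import Vale.Agent.P249.Defs
import Vale.Agent.P249.UpperFinal
import Vale.Agent.P249.LowerFinal

open MeasureTheory
open scoped ENNReal

namespace Vale.Agent.Results.P249.TwoSided

open Vale.Agent.P249

universe u

/-- Two-sided bounds for dimension reduction of finite subsets of `L_p`, `2 < p < ∞`. -/
theorem result (p : ℝ≥0∞) [Fact (1 ≤ p)] (hp2 : 2 < p) (hp : p ≠ ∞) :
    (∃ c : ℝ, 0 < c ∧ ∀ D : ℝ, 1 < D → ∀ n : ℕ, 16 ≤ n →
      c * (Real.log n / Real.log (Real.log n)) ^ (p.toReal / 2) / D ^ p.toReal ≤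
        (dimNum.{u} p n D : ℝ)) ∧
    (∀ D : ℝ, 1 < D → ∃ C : ℝ, 0 < C ∧ ∀ n : ℕ, 2 ≤ n →
      EmbedsAll.{u} p n D (dimNum.{u} p n D) ∧
      (dimNum.{u} p n D : ℝ) ≤ C * n * Real.log n ^ p.toReal) := by
  have hq2 : 2 ≤ p.toReal := by
    have := ENNReal.toReal_mono hp hp2.le
    simpa using this
  have hmem : ∀ D : ℝ, 1 < D → ∀ n : ℕ, 2 ≤ n → EmbedsAll.{u} p n D (dimNum.{u} p n D) := by
    intro D hD n hn
    obtain ⟨C, -, h⟩ := upper_bound.{u} p hp D hD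
    obtain ⟨d, hd, -⟩ := h n hn
    exact Nat.sInf_mem (s := {d : ℕ | EmbedsAll.{u} p n D d}) ⟨d, hd⟩
  constructor
  · obtain ⟨c, hc, h⟩ := lower_bound.{u} p hp hq2
    exact ⟨c, hc, fun D hD n hn => h D hD.le n hn _ (hmem D hD n (by omega))⟩
  · intro D hD
    obtain ⟨C, hC, h⟩ := upper_bound.{u} p hp D hD
    refine ⟨C, hC, fun n hn => ⟨hmem D hD n hn, ?_⟩⟩
    obtain ⟨d, hd, hdC⟩ := h n hn
    have h1 : dimNum.{u} p n D ≤ d := Nat.sInf_le hd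
    exact le_trans (by exact_mod_cast h1) hdC

end Vale.Agent.Results.P249.TwoSided
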